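import Vale.Agent.P217.Main

/-!
Chai's invariant ideal question for the Lubin-Tate ring, every prime and every height.
-/

open Vale.P217

theorem Vale.Agent.Results.P217.ChaiInvariantIdeals.result (p : ℕ) [Fact p.Prime] (n : ℕ) (hn : 1 ≤ n) :
    (∃ Γ : FormalGroup (ZMod p), Γ.IsComm ∧ mulSeries Γ p = PowerSeries.X ^ p ^ n) ∧
    ∀ Γ : FormalGroup (ZMod p), Γ.IsComm → mulSeries Γ p = PowerSeries.X ^ p ^ n →
      (∃ F, IsUniversalDeformation p n Γ F ∧
        ∀ h, 1 ≤ h → h ≤ n → heightIdeal p n F h = coordIdeal p n h) ∧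
      ∀ F, IsUniversalDeformation p n Γ F →
        (∀ τ g, IsIsoSeries (baseChange p n Γ) (baseChange p n Γ) g →
          ∃! α : LTRing p n ≃+* LTRing p n, IsMove p n F τ g α) ∧
        heightIdeal p n F 0 = ⊥ ∧
        (∀ I : Ideal (LTRing p n),
          (IsInvariantExt p n Γ F I ∧ I.IsPrime ↔ ∃ h ≤ n, I = heightIdeal p n F h) ∧
          (IsInvariantExt p n Γ F I ∧ I.IsRadical ↔
            I = ⊤ ∨ ∃ h ≤ n, I = heightIdeal p n F h) ∧
          (IsInvariantAut p n Γ F I ∧ I.IsPrime ↔ ∃ h ≤ n, I = heightIdeal p n F h) ∧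
          (IsInvariantAut p n Γ F I ∧ I.IsRadical ↔
            I = ⊤ ∨ ∃ h ≤ n, I = heightIdeal p n F h)) :=
  Vale.P217.chai_invariant_ideals p n hn
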